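import Vale.Agent.P302.H794.RateMain
import Vale.Agent.P302.H618.Main

/-!
# P302: the modified integer round-up conjecture is false, and `OPT - LP` grows at least like
`√(log OPT / log log OPT)`
-/

namespace Vale.Agent.Results.P302.GapGrowth

open Vale.Agent.P302

theorem result :
    (∃ I : List ℚ, IsInstance I ∧ ⌈LP I⌉ + 1 < (OPT I : ℤ)) ∧
    (∃ K : ℕ, ∀ k : ℕ, K ≤ k → ∃ I : List ℚ, IsInstance I ∧ OPT I = k ∧
      1 / 40 * √(Real.log k / Real.log (Real.log k)) ≤ (OPT I : ℝ) - LP I) ∧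
    ∀ t k : ℕ, (t + 4) ^ (2 * (t + 1) ^ 2 + 4) ≤ k → ∃ I : List ℚ, IsInstance I ∧ OPT I = k ∧
      (9 : ℝ) / 10 + t / 20 ≤ (OPT I : ℝ) - LP I :=
  ⟨H618.main.1, gap_growth, gap_level⟩

end Vale.Agent.Results.P302.GapGrowth
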