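import Vale.Agent.P302.H794.Family

/-!
# P302: instances of bin packing with `OPT - LP = 583/480`
-/

namespace Vale.Agent.Results.P302.LargeGap

open Vale.Agent.P302

/-- the sizes of the instance, in units of `1/573` -/
def xs : List ℕ :=
  [443, 441, 437, 289, 286, 252, 250, 246, 202, 197, 193, 191, 190, 187, 187, 169, 168, 167,
    163, 161, 158, 142, 70, 69, 68, 66, 66, 65, 63]

/-- an optimal fractional solution: patterns with weights in units of `1/480` -/
def sol : List (List ℕ × ℕ) :=
  [([252, 252, 69], 131), ([193, 193, 187], 120), ([443, 65, 65], 240), ([168, 168, 167, 70],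
    136), ([286, 286], 240), ([167, 167, 167, 70], 42), ([246, 168, 158], 208), ([202, 202,
    169], 240), ([250, 250, 70], 40), ([250, 161, 161], 240), ([169, 167, 167, 69], 109),
    ([191, 191, 191], 160), ([193, 190, 190], 240), ([289, 252], 218), ([437, 70, 66], 240),
    ([289, 197, 70], 22), ([246, 169, 158], 112), ([246, 163, 163], 160), ([197, 197, 169],
    19), ([289, 142, 142], 240), ([250, 163, 158], 160), ([197, 187, 187], 420), ([441, 66,
    66], 240), ([441, 69, 63], 240), ([437, 68, 68], 240), ([443, 66, 63], 240)]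

theorem xs_inst : IsInstance (inst 573 xs) :=
  isInstance_inst (by decide) (by decide +kernel)

theorem xs_pack : Packable (inst 573 xs) (10 + 1) :=
  ⟨fun i => (
    [0, 1, 2, 3, 4, 3, 4, 5, 5, 6, 6, 7, 7, 8, 7, 6, 8, 8, 9, 9, 9, 10, 0, 1, 2, 5, 2, 9, 1] : List (Fin (10 + 1))).getD i.1 0,
    by decide +kernel⟩

theorem xs_not_pack : ¬ Packable (inst 573 xs) 10 :=
  not_packable' (w := 144) (by decide) (by decide +kernel) (by decide +kernel) (by decide +kernel)

theorem xs_sol : ∃ z, IsLPSolution (inst 573 xs) z ∧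
    (((sol.map (fun d => d.2)).sum : ℕ) : ℝ) / (480 : ℕ) = z.sum (fun _ w => w) :=
  LP_cert (by decide) (by decide) sol (by decide +kernel) (by decide +kernel)

theorem result : ∀ k : ℕ, 11 ≤ k → ∃ I : List ℚ, IsInstance I ∧ OPT I = k ∧
    (OPT I : ℝ) - LP I ≥ 583 / 480 := by
  intro k hk
  obtain ⟨I, h1, h2, h3⟩ := family xs_inst xs_pack xs_not_pack xs_sol (k - 11)
  have hk' : 10 + (k - 11) + 1 = k := by omega
  rw [hk'] at h2
  refine ⟨I, h1, h2, ?_⟩
  have hs : (sol.map (fun d => d.2)).sum = 4697 := by decide +kernel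
  rw [hs] at h3
  have hk2 : ((k - 11 : ℕ) : ℝ) = (k : ℝ) - 11 := by
    rw [Nat.cast_sub hk]
    norm_num
  rw [hk2] at h3
  rw [h2]
  push_cast at h3
  linarith

end Vale.Agent.Results.P302.LargeGap
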