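import Vale.Agent.P302.H618.Main

/-!
# P302: the modified integer round-up conjecture is false, and `OPT - LP` is unbounded
-/

namespace Vale.Agent.Results.P302.UnboundedGap

open Vale.Agent.P302

theorem result :
    (∃ I : List ℚ, IsInstance I ∧ ⌈LP I⌉ + 1 < (OPT I : ℤ)) ∧
    ∀ M : ℝ, ∃ K : ℕ, ∀ k : ℕ, K ≤ k → ∃ I : List ℚ, IsInstance I ∧ OPT I = k ∧
      M < (OPT I : ℝ) - LP I :=
  H618.main

end Vale.Agent.Results.P302.UnboundedGap
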